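import Mathlib

namespace Vale.Agent.Lib.P160.H43

/-- Numeric lemma for the union step of the rare-values theorem. -/
theorem rv_num (C : ℝ) (hC : 0 < C) : ∃ m₀ : ℕ, 8 ≤ m₀ ∧ ∀ m n : ℕ, m₀ ≤ m → 6 * m ≤ n →
    C / (((m / 4 : ℕ) : ℝ) * Real.sqrt ((m / 4 : ℕ) : ℝ)) ≤ 1 ∧
    (m : ℝ) ^ n * 2 ^ n *
      (C / (((m / 4 : ℕ) : ℝ) * Real.sqrt ((m / 4 : ℕ) : ℝ))) ^ (n - m - m / 4) ≤ (1 / 8) ^ n := by
  obtain ⟨N, hN⟩ : ∃ N : ℕ, (128 ^ 4 * C ^ 3) ^ 2 + C ≤ (N : ℝ) :=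
    ⟨⌈(128 ^ 4 * C ^ 3) ^ 2 + C⌉₊, Nat.le_ceil _⟩
  refine ⟨4 * (N + 2), by omega, ?_⟩
  intro m n hm hn
  have hd : N + 2 ≤ m / 4 := by omega
  have hm8 : m ≤ 8 * (m / 4) := by omega
  have he : 3 * n ≤ 4 * (n - m - m / 4) := by omega
  set D : ℝ := ((m / 4 : ℕ) : ℝ) with hDdef
  have hD2 : (N : ℝ) + 2 ≤ D := by
    have : ((N + 2 : ℕ) : ℝ) ≤ ((m / 4 : ℕ) : ℝ) := by exact_mod_cast hd
    push_cast at this
    exact this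
  have hmD : (m : ℝ) ≤ 8 * D := by
    have : (m : ℝ) ≤ ((8 * (m / 4) : ℕ) : ℝ) := by exact_mod_cast hm8
    push_cast at this
    exact this
  have hm0 : (0 : ℝ) ≤ (m : ℝ) := Nat.cast_nonneg m
  have hC3 : 0 < C ^ 3 := by positivity
  have hK0 : 0 ≤ 128 ^ 4 * C ^ 3 := by positivity
  have hKsq : 0 ≤ (128 ^ 4 * C ^ 3) ^ 2 := by positivity
  have hD0 : 0 < D := by linarith
  set s : ℝ := Real.sqrt D with hsdef
  have hs2 : s ^ 2 = D := Real.sq_sqrt hD0.le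
  have hs0 : 0 ≤ s := Real.sqrt_nonneg D
  have hsK : 128 ^ 4 * C ^ 3 ≤ s := by
    have h1 : Real.sqrt ((128 ^ 4 * C ^ 3) ^ 2) ≤ Real.sqrt D :=
      Real.sqrt_le_sqrt (by linarith)
    rwa [Real.sqrt_sq hK0] at h1
  have hs1 : 1 ≤ s := by
    have h1 : Real.sqrt 1 ≤ Real.sqrt D := Real.sqrt_le_sqrt (by linarith)
    rwa [Real.sqrt_one] at h1
  have hspos : 0 < s := by linarith
  have hDs : 0 < D * s := mul_pos hD0 hspos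
  have hρ1 : C / (D * s) ≤ 1 := by
    rw [div_le_one hDs]
    nlinarith [mul_nonneg hD0.le (sub_nonneg.mpr hs1)]
  have hρ0 : 0 ≤ C / (D * s) := div_nonneg hC.le hDs.le
  have hDs3 : (D * s) ^ 3 = D ^ 4 * s := by
    have : s ^ 3 = D * s := by rw [← hs2]; ring
    rw [mul_pow, this]; ring
  have hkey : (2 * (m : ℝ)) ^ 4 * (C / (D * s)) ^ 3 ≤ (1 / 8) ^ 4 := by
    rw [div_pow, ← mul_div_assoc, div_le_iff₀ (by positivity)]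
    have h2m : 2 * (m : ℝ) ≤ 16 * D := by linarith
    calc (2 * (m : ℝ)) ^ 4 * C ^ 3 ≤ (16 * D) ^ 4 * C ^ 3 :=
          mul_le_mul_of_nonneg_right (pow_le_pow_left₀ (by positivity) h2m 4) hC3.le
      _ = (1 / 8) ^ 4 * D ^ 4 * (128 ^ 4 * C ^ 3) := by ring
      _ ≤ (1 / 8) ^ 4 * D ^ 4 * s :=
          mul_le_mul_of_nonneg_left hsK (by positivity)
      _ = (1 / 8) ^ 4 * (D * s) ^ 3 := by rw [hDs3]; ring
  refine ⟨hρ1, ?_⟩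
  set ρ : ℝ := C / (D * s) with hρdef
  have hA0 : 0 ≤ (m : ℝ) ^ n * 2 ^ n * ρ ^ (n - m - m / 4) := by positivity
  have hB0 : (0 : ℝ) ≤ (1 / 8) ^ n := by positivity
  have hA : (m : ℝ) ^ n * 2 ^ n * ρ ^ (n - m - m / 4)
      = (2 * (m : ℝ)) ^ n * ρ ^ (n - m - m / 4) := by
    rw [mul_pow, mul_comm ((m : ℝ) ^ n)]
  have h4 : ((m : ℝ) ^ n * 2 ^ n * ρ ^ (n - m - m / 4)) ^ 4 ≤ ((1 / 8 : ℝ) ^ n) ^ 4 := by
    calc ((m : ℝ) ^ n * 2 ^ n * ρ ^ (n - m - m / 4)) ^ 4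
        = ((2 * (m : ℝ)) ^ 4) ^ n * ρ ^ (4 * (n - m - m / 4)) := by
          rw [hA, mul_pow, ← pow_mul, ← pow_mul, ← pow_mul, mul_comm n 4,
            mul_comm (n - m - m / 4) 4]
      _ ≤ ((2 * (m : ℝ)) ^ 4) ^ n * ρ ^ (3 * n) :=
          mul_le_mul_of_nonneg_left (pow_le_pow_of_le_one hρ0 hρ1 he) (by positivity)
      _ = ((2 * (m : ℝ)) ^ 4 * ρ ^ 3) ^ n := by
          rw [mul_pow ((2 * (m : ℝ)) ^ 4) (ρ ^ 3) n, ← pow_mul ρ 3 n]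
      _ ≤ ((1 / 8 : ℝ) ^ 4) ^ n :=
          pow_le_pow_left₀ (by positivity) hkey n
      _ = ((1 / 8 : ℝ) ^ n) ^ 4 := by rw [← pow_mul, ← pow_mul, mul_comm]
  by_contra hlt
  have := pow_lt_pow_left₀ (not_le.mp hlt) hB0 (by norm_num : (4 : ℕ) ≠ 0)
  linarith

end Vale.Agent.Lib.P160.H43
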